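import Mathlib

/-! Block ALG-BIG of the weak Blaschke theorem (types `m = l + 1 = 4 r ≥ 8`):
for real `c` with `|c| > 1` and `n ≥ 3` the coefficient
`[τ^{n-1}] (1 - 2 c τ + τ²)^{(n+1)/2} / (1 - 4 c τ)` is not `± n (n+1) / 2`. -/

namespace Vale.Agent.P231.H936

open PowerSeries

/-- `1 - 2cτ + τ²`. -/
noncomputable def bQ (c : ℝ) : PowerSeries ℝ := 1 - C (2 * c) * X + X ^ 2

theorem exists_sqrt (c : ℝ) : ∃ φ : PowerSeries ℝ, φ ^ 2 = bQ c ∧ constantCoeff φ = 1 := by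
  have hs : HasSubst (X ^ 2 - C (2 * c) * X : PowerSeries ℝ) := by
    apply HasSubst.of_constantCoeff_zero'
    simp
  refine ⟨(PowerSeries.binomialSeries ℝ (1/2 : ℝ)).subst (X ^ 2 - C (2 * c) * X : PowerSeries ℝ), ?_, ?_⟩
  · rw [pow_two, ← subst_mul hs, ← binomialSeries_add]
    have h1 : ((1 : ℝ) / 2 + 1 / 2) = ((1 : ℕ) : ℝ) := by norm_num
    rw [h1, binomialSeries_nat, pow_one, subst_add hs, subst_X hs]
    have h2 : (1 : PowerSeries ℝ).subst (X ^ 2 - C (2 * c) * X : PowerSeries ℝ) =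
        (1 : PowerSeries ℝ) := by
      rw [← coe_substAlgHom hs, map_one]
    rw [h2, bQ]
    ring
  · have := constantCoeff_subst_eq_zero (a := (X ^ 2 - C (2 * c) * X : PowerSeries ℝ)) (by
      have : constantCoeff (X ^ 2 - C (2 * c) * X : PowerSeries ℝ) = 0 := by simp
      exact this) (PowerSeries.binomialSeries ℝ (1/2 : ℝ) - 1) (by simp)
    rw [subst_sub hs] at this
    have h2 : (1 : PowerSeries ℝ).subst (X ^ 2 - C (2 * c) * X : PowerSeries ℝ) =
        (1 : PowerSeries ℝ) := by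
      rw [← coe_substAlgHom hs, map_one]
    rw [h2, map_sub] at this
    have h3 := sub_eq_zero.1 this
    rw [map_one] at h3
    exact h3

theorem bQ_deriv (c : ℝ) : derivative ℝ (bQ c) = 2 * X - C (2 * c) := by
  rw [bQ]
  simp only [map_sub, map_add, Derivation.leibniz, Derivation.leibniz_pow, derivative_X,
    derivative_C, smul_eq_mul, mul_zero, add_zero, mul_one]
  simp
  ring

/-- The differential equation of `φ^N`, `φ² = Q`. -/
theorem ode {c : ℝ} {φ : PowerSeries ℝ} (h : φ ^ 2 = bQ c) (N : ℕ) :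
    2 * (bQ c * derivative ℝ (φ ^ N)) = (N : PowerSeries ℝ) * ((2 * X - C (2 * c)) * φ ^ N) := by
  have h1 : 2 * φ * derivative ℝ φ = 2 * X - C (2 * c) := by
    rw [← bQ_deriv, ← h, Derivation.leibniz_pow]
    simp
    ring
  rcases N with _ | N
  · simp
  · rw [Derivation.leibniz_pow, ← h, ← h1]
    simp only [Nat.add_sub_cancel, smul_eq_mul, nsmul_eq_mul]
    ring

theorem coeff_bQ_mul (c : ℝ) (F : PowerSeries ℝ) (k : ℕ) :
    coeff (k + 2) (bQ c * F) = coeff (k + 2) F - 2 * c * coeff (k + 1) F + coeff k F := by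
  have h : bQ c * F = F - C (2 * c) * (X * F) + X ^ 2 * F := by rw [bQ]; ring
  rw [h, map_add, map_sub, coeff_C_mul, coeff_succ_X_mul]
  have h2 : coeff (k + 2) (X ^ 2 * F) = coeff k F := by
    rw [pow_two, mul_assoc, coeff_succ_X_mul, coeff_succ_X_mul]
  rw [h2]

theorem coeff_one_bQ_mul (c : ℝ) (F : PowerSeries ℝ) :
    coeff 1 (bQ c * F) = coeff 1 F - 2 * c * coeff 0 F := by
  have h : bQ c * F = F - C (2 * c) * (X * F) + X * (X * F) := by rw [bQ]; ring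
  rw [h, map_add, map_sub, coeff_C_mul]
  have h1 : coeff 1 (X * F) = coeff 0 F := coeff_succ_X_mul 0 F
  have h2 : coeff 1 (X * (X * F)) = coeff 0 (X * F) := coeff_succ_X_mul 0 (X * F)
  rw [h1, h2]
  simp

/-- Coefficient recurrence of `φ^N`. -/
theorem coeff_rec {c : ℝ} {φ : PowerSeries ℝ} (h : φ ^ 2 = bQ c) (N j : ℕ) :
    2 * ((j + 3 : ℝ) * coeff (j + 3) (φ ^ N) - 2 * c * ((j + 2 : ℝ) * coeff (j + 2) (φ ^ N)) +
      (j + 1 : ℝ) * coeff (j + 1) (φ ^ N)) =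
      N * (2 * coeff (j + 1) (φ ^ N) - 2 * c * coeff (j + 2) (φ ^ N)) := by
  have h1 := congrArg (coeff (j + 2)) (ode h N)
  have h2 : (2 : PowerSeries ℝ) * (bQ c * derivative ℝ (φ ^ N)) =
      C 2 * (bQ c * derivative ℝ (φ ^ N)) := by
    rw [show (C (2 : ℝ) : PowerSeries ℝ) = 2 from map_ofNat _ 2]
  have h3 : (N : PowerSeries ℝ) * ((2 * X - C (2 * c)) * φ ^ N) =
      C (N : ℝ) * (C 2 * (X * φ ^ N) - C (2 * c) * φ ^ N) := by
    rw [show (C (2 : ℝ) : PowerSeries ℝ) = 2 from map_ofNat _ 2,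
      show (C (N : ℝ) : PowerSeries ℝ) = (N : PowerSeries ℝ) from map_natCast _ N]
    ring
  rw [h2, h3, coeff_C_mul, coeff_bQ_mul, coeff_C_mul, map_sub, coeff_C_mul, coeff_C_mul,
    coeff_succ_X_mul, coeff_derivative, coeff_derivative, coeff_derivative] at h1
  push_cast at h1
  linear_combination h1

theorem coeff_rec0 {c : ℝ} {φ : PowerSeries ℝ} (h : φ ^ 2 = bQ c) (N : ℕ) :
    2 * ((2 : ℝ) * coeff 2 (φ ^ N) - 2 * c * coeff 1 (φ ^ N)) =
      N * (2 * coeff 0 (φ ^ N) - 2 * c * coeff 1 (φ ^ N)) := by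
  have h1 := congrArg (coeff 1) (ode h N)
  have h2 : (2 : PowerSeries ℝ) * (bQ c * derivative ℝ (φ ^ N)) =
      C 2 * (bQ c * derivative ℝ (φ ^ N)) := by
    rw [show (C (2 : ℝ) : PowerSeries ℝ) = 2 from map_ofNat _ 2]
  have h3 : (N : PowerSeries ℝ) * ((2 * X - C (2 * c)) * φ ^ N) =
      C (N : ℝ) * (C 2 * (X * φ ^ N) - C (2 * c) * φ ^ N) := by
    rw [show (C (2 : ℝ) : PowerSeries ℝ) = 2 from map_ofNat _ 2,
      show (C (N : ℝ) : PowerSeries ℝ) = (N : PowerSeries ℝ) from map_natCast _ N]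
    ring
  have h4 : coeff 1 (X * φ ^ N) = coeff 0 (φ ^ N) := coeff_succ_X_mul 0 _
  rw [h2, h3, coeff_C_mul, coeff_one_bQ_mul, coeff_C_mul, map_sub, coeff_C_mul, coeff_C_mul,
    h4, coeff_derivative, coeff_derivative] at h1
  push_cast at h1
  linear_combination h1

/-- Coefficient recurrence of `φ^N`, all indices. -/
theorem coeff_rec' {c : ℝ} {φ : PowerSeries ℝ} (h : φ ^ 2 = bQ c) (N j : ℕ) :
    2 * ((j + 2 : ℝ) * coeff (j + 2) (φ ^ N) - 2 * c * ((j + 1 : ℝ) * coeff (j + 1) (φ ^ N)) +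
      (j : ℝ) * coeff j (φ ^ N)) =
      N * (2 * coeff j (φ ^ N) - 2 * c * coeff (j + 1) (φ ^ N)) := by
  rcases j with _ | j
  · have := coeff_rec0 h N
    simp only [Nat.cast_zero, zero_add]
    linear_combination this
  · have := coeff_rec h N j
    push_cast
    rw [show j + 1 + 2 = j + 3 from rfl, show j + 1 + 1 = j + 2 from rfl]
    linear_combination this

/-- First coefficient of `φ^N`. -/
theorem coeff_one_pow {c : ℝ} {φ : PowerSeries ℝ} (h : φ ^ 2 = bQ c)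
    (h0 : constantCoeff φ = 1) (N : ℕ) : coeff 1 (φ ^ N) = - c * N := by
  have h1 := congrArg (coeff 0) (ode h N)
  simp only [coeff_zero_eq_constantCoeff, map_mul, map_sub, map_pow, h0, one_pow, bQ, map_add,
    constantCoeff_X, constantCoeff_C, map_one] at h1
  rw [← coeff_zero_eq_constantCoeff_apply (derivative ℝ (φ ^ N)), coeff_derivative] at h1
  have h2 : constantCoeff (2 : PowerSeries ℝ) = 2 := map_ofNat _ 2
  simp [h2] at h1
  linear_combination h1 / 2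

/-- Division by `1 - 4cτ`. -/
theorem div_rec {c : ℝ} {F W : PowerSeries ℝ} (h : W * (1 - C (4 * c) * X) = F) (m : ℕ) :
    coeff (m + 1) W = 4 * c * coeff m W + coeff (m + 1) F := by
  have h1 : F = W - C (4 * c) * (X * W) := by rw [← h]; ring
  rw [h1, map_sub, coeff_C_mul, coeff_succ_X_mul]
  ring

/-- The two step recurrence. -/
theorem S_rec {c : ℝ} {F W : PowerSeries ℝ} (h : W * (1 - C (4 * c) * X) = F) (m : ℕ) :
    coeff (m + 2) (bQ c * W) =
      (8 * c ^ 2 + 1) * coeff m W + coeff (m + 2) F + 2 * c * coeff (m + 1) F := by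
  rw [coeff_bQ_mul, div_rec h (m + 1), div_rec h m]
  ring

/-- Top coefficients of `Q^k`. -/
theorem coeff_bQ_pow (c : ℝ) (k : ℕ) :
    (∀ j, coeff (2 * k + 1 + j) (bQ c ^ k) = 0) ∧ coeff (2 * k) (bQ c ^ k) = 1 ∧
      ∀ i, i + 1 = 2 * k → coeff i (bQ c ^ k) = - (2 * c * k) := by
  induction k with
  | zero =>
    refine ⟨fun j => ?_, ?_, fun i hi => by omega⟩
    · rw [pow_zero, coeff_one, if_neg (by omega)]
    · rw [pow_zero, coeff_one, if_pos (by omega)]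
  | succ k ih =>
    obtain ⟨h1, h2, h3⟩ := ih
    refine ⟨fun j => ?_, ?_, fun i hi => ?_⟩
    · have e : 2 * (k + 1) + 1 + j = (2 * k + 1 + j) + 2 := by ring
      rw [pow_succ', e, coeff_bQ_mul, h1 j, show 2 * k + 1 + j + 2 = 2 * k + 1 + (j + 2) by ring,
        h1 (j + 2), show 2 * k + 1 + j + 1 = 2 * k + 1 + (j + 1) by ring, h1 (j + 1)]
      ring
    · have e : 2 * (k + 1) = (2 * k) + 2 := by ring
      rw [pow_succ', e, coeff_bQ_mul, h2, show 2 * k + 2 = 2 * k + 1 + 1 by ring, h1 1,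
        show 2 * k + 1 = 2 * k + 1 + 0 by ring, h1 0]
      ring
    · obtain rfl : i = 2 * k + 1 := by omega
      rcases k with _ | k
      · have := coeff_one_bQ_mul c 1
        simp only [coeff_one] at this
        simp only [mul_zero, zero_add, pow_one]
        rw [mul_one] at this
        rw [this]
        simp
      · have e : 2 * (k + 1) + 1 = (2 * k + 1) + 2 := by ring
        have h3' := h3 (2 * k + 1) (by ring)
        rw [pow_succ', e, coeff_bQ_mul, h3', show 2 * k + 1 + 2 = 2 * (k + 1) + 1 + 0 by ring,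
          h1 0, show 2 * k + 1 + 1 = 2 * (k + 1) by ring, h2]
        push_cast
        ring

/-- Odd case: `[τ^{2k}] φ^{2k+2} / (1 - 4cτ) > (2k+1)(k+1)` for `k ≥ 1`, `c² > 1`. -/
theorem odd_case {c : ℝ} (hc : 1 < c ^ 2) {φ G : PowerSeries ℝ} (h : φ ^ 2 = bQ c)
    (hG : G * (1 - C (4 * c) * X) = 1) (k : ℕ) :
    (2 * (k + 1) + 1) * ((k + 1) + 1) < coeff (2 * (k + 1)) (φ ^ (2 * (k + 1) + 2) * G) := by
  have hG0 : constantCoeff G = 1 := by
    have := congrArg constantCoeff hG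
    simpa using this
  have step : ∀ k : ℕ, coeff (2 * (k + 1)) (φ ^ (2 * (k + 1) + 2) * G) =
      (8 * c ^ 2 + 1) * coeff (2 * k) (φ ^ (2 * k + 2) * G) + 1 - 4 * c ^ 2 * (k + 1) := by
    intro k
    have hW : (φ ^ (2 * k + 2) * G) * (1 - C (4 * c) * X) = φ ^ (2 * k + 2) := by
      rw [mul_assoc, hG, mul_one]
    have h1 := S_rec hW (2 * k)
    have h2 : φ ^ (2 * (k + 1) + 2) * G = bQ c * (φ ^ (2 * k + 2) * G) := by
      rw [← h]; ring
    have h3 : φ ^ (2 * k + 2) = bQ c ^ (k + 1) := by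
      rw [← h]; ring
    obtain ⟨-, h4, h5⟩ := coeff_bQ_pow c (k + 1)
    rw [h2, show 2 * (k + 1) = 2 * k + 2 by ring, h1, h3]
    rw [show 2 * (k + 1) = 2 * k + 2 by ring] at h4
    rw [h4, h5 (2 * k + 1) (by ring)]
    push_cast
    ring
  induction k with
  | zero =>
    have h1 := step 0
    have h2 : coeff (2 * 0) (φ ^ (2 * 0 + 2) * G) = 1 := by
      rw [mul_zero, coeff_zero_eq_constantCoeff, map_mul, zero_add, h, hG0]
      simp [bQ]
    rw [h1, h2]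
    push_cast
    nlinarith
  | succ k ih =>
    rw [step (k + 1)]
    have hk : (0 : ℝ) ≤ k := Nat.cast_nonneg k
    push_cast
    have h8 : 0 < 8 * c ^ 2 + 1 := by positivity
    have := mul_lt_mul_of_pos_left ih h8
    nlinarith [mul_nonneg hk hk, mul_nonneg hk (sub_nonneg.2 hc.le),
      mul_nonneg (mul_nonneg hk hk) (sub_nonneg.2 hc.le)]

/-- The even case: data of `φ^{2k+1}`. -/
theorem even_data {c : ℝ} (hc : 1 ≤ c ^ 2) {φ : PowerSeries ℝ} (h : φ ^ 2 = bQ c)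
    (h0 : constantCoeff φ = 1) (k : ℕ) :
    |coeff (2 * k + 2) (φ ^ (2 * k + 1))| ≤ (c ^ 2) ^ (k + 1) / 2 ∧
    |coeff (2 * k + 1) (φ ^ (2 * k + 1))| ≤ |c| * ((k + 1) * (c ^ 2) ^ k) ∧
    |coeff (2 * k + 1) (φ ^ (2 * k + 1)) + 2 * c * coeff (2 * k) (φ ^ (2 * k + 1))| ≤
      |c| * ((2 * k ^ 2 + 5 / 2 * k + 1) * (c ^ 2) ^ k) := by
  have hc0 : 0 ≤ c ^ 2 := by positivity
  -- relations
  have R1 : ∀ k : ℕ, (2 * k + 2 : ℝ) * coeff (2 * k + 2) (φ ^ (2 * k + 1)) =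
      (2 * k + 1) * c * coeff (2 * k + 1) (φ ^ (2 * k + 1)) + coeff (2 * k) (φ ^ (2 * k + 1)) := by
    intro k
    have := coeff_rec' h (2 * k + 1) (2 * k)
    push_cast at this
    linear_combination this / 2
  have R2 : ∀ k : ℕ, coeff (2 * k + 3) (φ ^ (2 * k + 1)) =
      c * coeff (2 * k + 2) (φ ^ (2 * k + 1)) := by
    intro k
    have := coeff_rec' h (2 * k + 1) (2 * k + 1)
    push_cast at this
    rw [show 2 * k + 1 + 2 = 2 * k + 3 by ring, show 2 * k + 1 + 1 = 2 * k + 2 by ring] at this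
    have h3 : (2 * k + 3 : ℝ) ≠ 0 := by positivity
    apply mul_left_cancel₀ h3
    linear_combination this / 2
  have e : ∀ k : ℕ, φ ^ (2 * (k + 1) + 1) = bQ c * φ ^ (2 * k + 1) := by
    intro k
    rw [← h]; ring
  have R3 : ∀ k : ℕ, coeff (2 * (k + 1)) (φ ^ (2 * (k + 1) + 1)) =
      coeff (2 * k + 2) (φ ^ (2 * k + 1)) - 2 * c * coeff (2 * k + 1) (φ ^ (2 * k + 1)) +
        coeff (2 * k) (φ ^ (2 * k + 1)) := by
    intro k
    rw [e, show 2 * (k + 1) = 2 * k + 2 by ring, coeff_bQ_mul]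
  have R4 : ∀ k : ℕ, coeff (2 * (k + 1) + 1) (φ ^ (2 * (k + 1) + 1)) =
      coeff (2 * k + 1) (φ ^ (2 * k + 1)) - c * coeff (2 * k + 2) (φ ^ (2 * k + 1)) := by
    intro k
    rw [e, show 2 * (k + 1) + 1 = (2 * k + 1) + 2 by ring, coeff_bQ_mul,
      show 2 * k + 1 + 2 = 2 * k + 3 by ring, R2, show 2 * k + 1 + 1 = 2 * k + 2 by ring]
    ring
  have R5 : ∀ k : ℕ, (2 * k + 4 : ℝ) * coeff (2 * (k + 1) + 2) (φ ^ (2 * (k + 1) + 1)) =
      (2 * k + 3) * (1 - c ^ 2) * coeff (2 * k + 2) (φ ^ (2 * k + 1)) := by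
    intro k
    have h1 := R1 (k + 1)
    have h2 := R1 k
    rw [R3, R4] at h1
    push_cast at h1
    linear_combination h1 - h2
  induction k with
  | zero =>
    have ha : coeff 0 (φ ^ 1) = 1 := by simp [h0]
    have hb : coeff 1 (φ ^ 1) = -c := by
      have := coeff_one_pow h h0 1
      simpa using this
    have hp := R1 0
    simp only [Nat.cast_zero, mul_zero, zero_add] at hp
    rw [ha, hb] at hp
    simp only [mul_zero, zero_add]
    rw [ha, hb]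
    refine ⟨?_, ?_, ?_⟩
    · have : coeff 2 (φ ^ 1) = (1 - c ^ 2) / 2 := by linear_combination hp / 2
      rw [this, abs_le]
      constructor <;> nlinarith
    · simp
    · simp
      rw [show -c + 2 * c = c by ring]
  | succ k ih =>
    obtain ⟨i1, i2, i3⟩ := ih
    have hk : (0 : ℝ) ≤ k := Nat.cast_nonneg k
    have hpow : (c ^ 2) ^ k ≤ (c ^ 2) ^ (k + 1) := pow_le_pow_right₀ hc (Nat.le_succ k)
    have hpk : 0 ≤ (c ^ 2) ^ k := by positivity
    have hca : 0 ≤ |c| := abs_nonneg c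
    refine ⟨?_, ?_, ?_⟩
    · have h5 := R5 k
      have h6 : coeff (2 * (k + 1) + 2) (φ ^ (2 * (k + 1) + 1)) =
          - (((2 * k + 3) / (2 * k + 4)) * ((c ^ 2 - 1) * coeff (2 * k + 2) (φ ^ (2 * k + 1)))) := by
        have : (2 * k + 4 : ℝ) ≠ 0 := by positivity
        field_simp
        linear_combination h5
      rw [h6, abs_neg, abs_mul, abs_mul, abs_of_nonneg (by positivity : (0 : ℝ) ≤ (2 * k + 3) / (2 * k + 4)),
        abs_of_nonneg (by linarith : 0 ≤ c ^ 2 - 1)]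
      have h7 : (2 * k + 3 : ℝ) / (2 * k + 4) ≤ 1 := by
        rw [div_le_one (by positivity)]; linarith
      have h8 : (c ^ 2 - 1) * |coeff (2 * k + 2) (φ ^ (2 * k + 1))| ≤
          c ^ 2 * ((c ^ 2) ^ (k + 1) / 2) :=
        mul_le_mul (by linarith) i1 (abs_nonneg _) hc0
      calc _ ≤ 1 * ((c ^ 2 - 1) * |coeff (2 * k + 2) (φ ^ (2 * k + 1))|) :=
            mul_le_mul_of_nonneg_right h7 (mul_nonneg (by linarith) (abs_nonneg _))
        _ ≤ 1 * (c ^ 2 * ((c ^ 2) ^ (k + 1) / 2)) := by linarith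
        _ = _ := by ring
    · rw [R4]
      have h1 : |c * coeff (2 * k + 2) (φ ^ (2 * k + 1))| ≤ |c| * ((c ^ 2) ^ (k + 1) / 2) := by
        rw [abs_mul]; exact mul_le_mul_of_nonneg_left i1 hca
      have h2 : |c| * ((k + 1) * (c ^ 2) ^ k) ≤ |c| * ((k + 1) * (c ^ 2) ^ (k + 1)) :=
        mul_le_mul_of_nonneg_left (mul_le_mul_of_nonneg_left hpow (by positivity)) hca
      have h3 := abs_sub (coeff (2 * k + 1) (φ ^ (2 * k + 1)))
        (c * coeff (2 * k + 2) (φ ^ (2 * k + 1)))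
      have h4 : 0 ≤ |c| * (c ^ 2) ^ (k + 1) := by positivity
      push_cast
      nlinarith
    · rw [R3, R4]
      have h1 : |c * coeff (2 * k + 2) (φ ^ (2 * k + 1))| ≤ |c| * ((c ^ 2) ^ (k + 1) / 2) := by
        rw [abs_mul]; exact mul_le_mul_of_nonneg_left i1 hca
      have h2 : |4 * c ^ 2 * coeff (2 * k + 1) (φ ^ (2 * k + 1))| ≤
          4 * c ^ 2 * (|c| * ((k + 1) * (c ^ 2) ^ k)) := by
        rw [abs_mul, abs_of_nonneg (by positivity : 0 ≤ 4 * c ^ 2)]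
        exact mul_le_mul_of_nonneg_left i2 (by positivity)
      have h3 : |c| * ((2 * k ^ 2 + 5 / 2 * k + 1) * (c ^ 2) ^ k) ≤
          |c| * ((2 * k ^ 2 + 5 / 2 * k + 1) * (c ^ 2) ^ (k + 1)) :=
        mul_le_mul_of_nonneg_left (mul_le_mul_of_nonneg_left hpow (by positivity)) hca
      have h5 : coeff (2 * k + 1) (φ ^ (2 * k + 1)) - c * coeff (2 * k + 2) (φ ^ (2 * k + 1)) +
          2 * c * (coeff (2 * k + 2) (φ ^ (2 * k + 1)) -
            2 * c * coeff (2 * k + 1) (φ ^ (2 * k + 1)) + coeff (2 * k) (φ ^ (2 * k + 1))) =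
          (coeff (2 * k + 1) (φ ^ (2 * k + 1)) + 2 * c * coeff (2 * k) (φ ^ (2 * k + 1))) +
          c * coeff (2 * k + 2) (φ ^ (2 * k + 1)) -
          4 * c ^ 2 * coeff (2 * k + 1) (φ ^ (2 * k + 1)) := by ring
      rw [h5]
      have h6 := abs_sub ((coeff (2 * k + 1) (φ ^ (2 * k + 1)) +
        2 * c * coeff (2 * k) (φ ^ (2 * k + 1))) + c * coeff (2 * k + 2) (φ ^ (2 * k + 1)))
        (4 * c ^ 2 * coeff (2 * k + 1) (φ ^ (2 * k + 1)))
      have h7 := abs_add_le (coeff (2 * k + 1) (φ ^ (2 * k + 1)) +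
        2 * c * coeff (2 * k) (φ ^ (2 * k + 1))) (c * coeff (2 * k + 2) (φ ^ (2 * k + 1)))
      have h8 : 4 * c ^ 2 * (|c| * ((k + 1) * (c ^ 2) ^ k)) =
          |c| * (4 * (k + 1) * (c ^ 2) ^ (k + 1)) := by ring
      push_cast
      nlinarith

/-- Even case: `|[τ^{2k+1}] φ^{2k+3} / (1 - 4cτ)| > (k+1)(2k+3)` for `k ≥ 1`, `c² ≥ 1`. -/
theorem even_case {c : ℝ} (hc : 1 ≤ c ^ 2) {φ G : PowerSeries ℝ} (h : φ ^ 2 = bQ c)
    (h0 : constantCoeff φ = 1) (hG : G * (1 - C (4 * c) * X) = 1) (k : ℕ) :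
    (k + 2) * (2 * (k + 2) + 1) < |coeff (2 * k + 3) (φ ^ (2 * k + 5) * G)| := by
  have hc1 : 1 ≤ |c| := by
    rw [← one_le_sq_iff_one_le_abs]; exact hc
  have hG0 : constantCoeff G = 1 := by
    have := congrArg constantCoeff hG
    simpa using this
  have step : ∀ k : ℕ, coeff (2 * (k + 1) + 1) (φ ^ (2 * (k + 1) + 3) * G) =
      (8 * c ^ 2 + 1) * coeff (2 * k + 1) (φ ^ (2 * k + 3) * G) +
      (coeff (2 * (k + 1) + 1) (φ ^ (2 * (k + 1) + 1)) +
        2 * c * coeff (2 * (k + 1)) (φ ^ (2 * (k + 1) + 1))) := by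
    intro k
    have hW : (φ ^ (2 * k + 3) * G) * (1 - C (4 * c) * X) = φ ^ (2 * k + 3) := by
      rw [mul_assoc, hG, mul_one]
    have h1 := S_rec hW (2 * k + 1)
    have h2 : φ ^ (2 * (k + 1) + 3) * G = bQ c * (φ ^ (2 * k + 3) * G) := by
      rw [← h]; ring
    rw [h2, show 2 * (k + 1) + 1 = 2 * k + 1 + 2 by ring, h1,
      show 2 * (k + 1) = 2 * k + 1 + 1 by ring, show 2 * k + 1 + 1 + 1 = 2 * k + 3 by ring]
    ring
  have base : coeff 1 (φ ^ 3 * G) = c := by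
    have hW : (φ ^ 3 * G) * (1 - C (4 * c) * X) = φ ^ 3 := by
      rw [mul_assoc, hG, mul_one]
    have h1 := div_rec hW 0
    have h2 := coeff_one_pow h h0 3
    rw [zero_add, h2] at h1
    rw [h1]
    simp [h0, hG0]
    ring
  have main : |c| * ((2 * (k + 2) ^ 2 + (k + 2) + 1 / 2) * (c ^ 2) ^ (k + 1)) ≤
      |coeff (2 * k + 3) (φ ^ (2 * k + 5) * G)| := by
    induction k with
    | zero =>
      have h1 := step 0
      have h2 : coeff 3 (φ ^ 3) = c * (c ^ 2 - 3) / 2 := by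
        have ha := coeff_rec' h 3 1
        have hb := coeff_rec' h 3 0
        have hd := coeff_one_pow h h0 3
        simp only [Nat.cast_ofNat, Nat.cast_one, Nat.cast_zero, zero_add, zero_mul, add_zero] at ha hb hd
        have h00 : coeff 0 (φ ^ 3) = 1 := by simp [h0]
        rw [show 1 + 2 = 3 from rfl, show 1 + 1 = 2 from rfl] at ha
        rw [hd] at ha hb
        rw [h00] at hb
        have hb' : coeff 2 (φ ^ 3) = (3 * c ^ 2 + 3) / 2 := by linear_combination hb / 4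
        rw [hb'] at ha
        linear_combination ha / 6
      have h3 : coeff 2 (φ ^ 3) = (3 * c ^ 2 + 3) / 2 := by
        have hb := coeff_rec' h 3 0
        have hd := coeff_one_pow h h0 3
        simp only [Nat.cast_ofNat, Nat.cast_zero, zero_add, zero_mul, add_zero] at hb hd
        have h00 : coeff 0 (φ ^ 3) = 1 := by simp [h0]
        rw [hd] at hb
        rw [h00] at hb
        linear_combination hb / 4
      norm_num at h1 ⊢
      rw [h1, base, h2, h3]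
      have : (8 * c ^ 2 + 1) * c + (c * (c ^ 2 - 3) / 2 + 2 * c * ((3 * c ^ 2 + 3) / 2)) =
          c * ((23 * c ^ 2 + 5) / 2) := by ring
      rw [this, abs_mul, abs_of_nonneg (by positivity : 0 ≤ (23 * c ^ 2 + 5) / 2)]
      apply mul_le_mul_of_nonneg_left _ (abs_nonneg c)
      nlinarith
    | succ k ih =>
      have h1 := step (k + 1)
      obtain ⟨-, -, h3⟩ := even_data hc h h0 (k + 2)
      rw [show 2 * (k + 1) + 3 = 2 * (k + 1 + 1) + 1 by ring,
        show 2 * (k + 1) + 5 = 2 * (k + 1 + 1) + 3 by ring, h1,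
        show 2 * (k + 1) + 1 = 2 * k + 3 by ring, show 2 * (k + 1) + 3 = 2 * k + 5 by ring]
      rw [show k + 2 = k + 1 + 1 from rfl] at h3
      set a := coeff (2 * k + 3) (φ ^ (2 * k + 5) * G) with ha
      set b := coeff (2 * (k + 1 + 1) + 1) (φ ^ (2 * (k + 1 + 1) + 1)) +
        2 * c * coeff (2 * (k + 1 + 1)) (φ ^ (2 * (k + 1 + 1) + 1)) with hb
      have hk : (0 : ℝ) ≤ k := Nat.cast_nonneg k
      have hca : 0 ≤ |c| := abs_nonneg c
      have h4 : |(8 * c ^ 2 + 1) * a| - |b| ≤ |(8 * c ^ 2 + 1) * a + b| := by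
        have := abs_sub_abs_le_abs_sub ((8 * c ^ 2 + 1) * a) (-b)
        simpa using this
      rw [abs_mul, abs_of_nonneg (by positivity : 0 ≤ 8 * c ^ 2 + 1)] at h4
      have h5 : 8 * c ^ 2 * (|c| * ((2 * (k + 2) ^ 2 + (k + 2) + 1 / 2) * (c ^ 2) ^ (k + 1))) ≤
          (8 * c ^ 2 + 1) * |a| := by
        have : 0 ≤ |c| * ((2 * ((k : ℝ) + 2) ^ 2 + (k + 2) + 1 / 2) * (c ^ 2) ^ (k + 1)) := by
          positivity
        nlinarith [abs_nonneg a]
      have h6 : 8 * c ^ 2 * (|c| * ((2 * (k + 2) ^ 2 + (k + 2) + 1 / 2) * (c ^ 2) ^ (k + 1))) =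
          (8 * (2 * ((k : ℝ) + 2) ^ 2 + (k + 2) + 1 / 2)) * (|c| * (c ^ 2) ^ (k + 2)) := by ring
      have h7 : |c| * ((2 * ((k + 1 + 1 : ℕ) : ℝ) ^ 2 + 5 / 2 * ((k + 1 + 1 : ℕ) : ℝ) + 1) *
          (c ^ 2) ^ (k + 1 + 1)) =
          (2 * ((k : ℝ) + 2) ^ 2 + 5 / 2 * (k + 2) + 1) * (|c| * (c ^ 2) ^ (k + 2)) := by
        push_cast; ring
      rw [h7] at h3
      rw [h6] at h5
      have h8 : 0 ≤ |c| * (c ^ 2) ^ (k + 2) := by positivity
      have h9 : |c| * ((2 * (((k + 1 : ℕ) : ℝ) + 2) ^ 2 + (((k + 1 : ℕ) : ℝ) + 2) + 1 / 2) *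
          (c ^ 2) ^ (k + 1 + 1)) =
          (2 * ((k : ℝ) + 3) ^ 2 + (k + 3) + 1 / 2) * (|c| * (c ^ 2) ^ (k + 2)) := by
        push_cast; ring
      rw [h9]
      have h10 : (2 * ((k : ℝ) + 3) ^ 2 + (k + 3) + 1 / 2) ≤
          (8 * (2 * ((k : ℝ) + 2) ^ 2 + (k + 2) + 1 / 2)) -
            (2 * ((k : ℝ) + 2) ^ 2 + 5 / 2 * (k + 2) + 1) := by nlinarith [mul_nonneg hk hk]
      have h11 := mul_le_mul_of_nonneg_right h10 h8
      linarith
  refine lt_of_lt_of_le ?_ main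
  have h1 : 1 ≤ (c ^ 2) ^ (k + 1) := one_le_pow₀ hc
  have hk : (0 : ℝ) ≤ k := Nat.cast_nonneg k
  have h2 : (2 * ((k : ℝ) + 2) ^ 2 + (k + 2) + 1 / 2) * 1 ≤
      (2 * ((k : ℝ) + 2) ^ 2 + (k + 2) + 1 / 2) * (c ^ 2) ^ (k + 1) :=
    mul_le_mul_of_nonneg_left h1 (by positivity)
  have h3 : 1 * ((2 * ((k : ℝ) + 2) ^ 2 + (k + 2) + 1 / 2) * 1) ≤
      |c| * ((2 * ((k : ℝ) + 2) ^ 2 + (k + 2) + 1 / 2) * (c ^ 2) ^ (k + 1)) :=
    mul_le_mul hc1 h2 (by positivity) (abs_nonneg c)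
  nlinarith

/-- The inequality for all `n ≥ 3`, `|c| > 1`. -/
theorem big_lt {n : ℕ} (hn : 3 ≤ n) {c : ℝ} (hc : 1 < |c|) {φ G : PowerSeries ℝ}
    (h : φ ^ 2 = bQ c) (h0 : constantCoeff φ = 1) (hG : G * (1 - C (4 * c) * X) = 1) :
    (n * (n + 1) / 2 : ℝ) < |coeff (n - 1) (φ ^ (n + 1) * G)| := by
  have hc2 : 1 < c ^ 2 := by
    rw [one_lt_sq_iff_one_lt_abs]; exact hc
  rcases Nat.even_or_odd' n with ⟨k, rfl | rfl⟩
  · obtain ⟨k, rfl⟩ : ∃ j, k = j + 2 := ⟨k - 2, by omega⟩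
    have := even_case hc2.le h h0 hG k
    rw [show 2 * (k + 2) - 1 = 2 * k + 3 by omega, show 2 * (k + 2) + 1 = 2 * k + 5 by ring]
    refine lt_of_eq_of_lt ?_ this
    push_cast
    ring
  · obtain ⟨k, rfl⟩ : ∃ j, k = j + 1 := ⟨k - 1, by omega⟩
    have := odd_case hc2 h hG k
    rw [show 2 * (k + 1) + 1 - 1 = 2 * (k + 1) by omega,
      show 2 * (k + 1) + 1 + 1 = 2 * (k + 1) + 2 by ring]
    refine lt_of_eq_of_lt ?_ (lt_of_lt_of_le this (le_abs_self _))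
    push_cast
    ring

/-- `1 / (1 - 4cτ)`. -/
theorem exists_geom (c : ℝ) : ∃ G : PowerSeries ℝ, G * (1 - C (4 * c) * X) = 1 := by
  refine ⟨(1 - C (4 * c) * X)⁻¹, PowerSeries.inv_mul_cancel _ ?_⟩
  simp

/-- Uniqueness of the square root modulo `X^n`. -/
theorem sqrt_unique {n : ℕ} {a b : PowerSeries ℝ} (ha : constantCoeff a = 1)
    (hb : constantCoeff b = 1) (h : ∀ k < n, coeff k (a ^ 2) = coeff k (b ^ 2)) :
    X ^ n ∣ a - b := by
  have h1 : X ^ n ∣ (a - b) * (a + b) := by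
    rw [X_pow_dvd_iff]
    intro m hm
    have : (a - b) * (a + b) = a ^ 2 - b ^ 2 := by ring
    rw [this, map_sub, h m hm, sub_self]
  have h2 : IsUnit (a + b) := by
    rw [isUnit_iff_constantCoeff, map_add, ha, hb]
    norm_num
  exact (h2.dvd_mul_right).1 h1

/-- **Final form.** If `f` has constant coefficient `1` and
`f² (1 - 4cτ)² ≡ (1 - 2cτ + τ²)^{n+1}` modulo `τ^n`, with `n ≥ 3` and `|c| > 1`, then
`|[τ^{n-1}] f| > n (n+1) / 2`. -/
theorem big_main {n : ℕ} (hn : 3 ≤ n) {c : ℝ} (hc : 1 < |c|) {f : PowerSeries ℝ}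
    (hf : constantCoeff f = 1)
    (h : ∀ k < n, coeff k (f ^ 2 * (1 - C (4 * c) * X) ^ 2) = coeff k (bQ c ^ (n + 1))) :
    (n * (n + 1) / 2 : ℝ) < |coeff (n - 1) f| := by
  obtain ⟨φ, hφ, hφ0⟩ := exists_sqrt c
  obtain ⟨G, hG⟩ := exists_geom c
  have h1 : X ^ n ∣ f * (1 - C (4 * c) * X) - φ ^ (n + 1) := by
    apply sqrt_unique
    · simp [hf]
    · simp [hφ0]
    · intro k hk
      rw [mul_pow, h k hk, ← pow_mul, mul_comm (n + 1) 2, pow_mul, hφ]
  have h2 : X ^ n ∣ f - φ ^ (n + 1) * G := by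
    have h3 : f - φ ^ (n + 1) * G = (f * (1 - C (4 * c) * X) - φ ^ (n + 1)) * G := by
      have : f = f * (G * (1 - C (4 * c) * X)) := by rw [hG, mul_one]
      calc f - φ ^ (n + 1) * G = f * (G * (1 - C (4 * c) * X)) - φ ^ (n + 1) * G := by rw [← this]
        _ = _ := by ring
    rw [h3]
    exact h1.mul_right _
  have h4 : coeff (n - 1) f = coeff (n - 1) (φ ^ (n + 1) * G) := by
    have := (X_pow_dvd_iff.1 h2) (n - 1) (by omega)
    rw [map_sub] at this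
    exact sub_eq_zero.1 this
  rw [h4]
  exact big_lt hn hc hφ hφ0 hG

/-- The case `n = 2`: `[τ] f = c`. -/
theorem two_main {c : ℝ} {f : PowerSeries ℝ} (hf : constantCoeff f = 1)
    (h : coeff 1 (f ^ 2 * (1 - C (4 * c) * X) ^ 2) = coeff 1 (bQ c ^ 3)) :
    coeff 1 f = c := by
  have h1 : coeff 1 (f ^ 2 * (1 - C (4 * c) * X) ^ 2) = 2 * coeff 1 f - 8 * c := by
    have e : f ^ 2 * (1 - C (4 * c) * X) ^ 2 =
        f ^ 2 - C (8 * c) * (X * f ^ 2) + C (16 * c ^ 2) * (X * (X * f ^ 2)) := by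
      have h16 : (C (16 * c ^ 2) : PowerSeries ℝ) = C (4 * c) ^ 2 := by
        rw [← map_pow]; congr 1; ring
      have h8 : (C (8 * c) : PowerSeries ℝ) = 2 * C (4 * c) := by
        rw [← map_ofNat (C : ℝ →+* PowerSeries ℝ) 2, ← map_mul]; congr 1; ring
      rw [h16, h8]; ring
    have a1 : coeff 1 (X * f ^ 2) = coeff 0 (f ^ 2) := coeff_succ_X_mul 0 _
    have a2 : coeff 1 (X * (X * f ^ 2)) = coeff 0 (X * f ^ 2) := coeff_succ_X_mul 0 _
    have a3 : coeff 1 (f ^ 2) = 2 * coeff 1 f := by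
      rw [pow_two, coeff_mul, Finset.Nat.sum_antidiagonal_eq_sum_range_succ_mk]
      simp [Finset.sum_range_succ, hf]
      ring
    rw [e, map_add, map_sub, coeff_C_mul, coeff_C_mul, a1, a2, a3]
    simp [hf]
  have h2 : coeff 1 (bQ c ^ 3) = -6 * c := by
    obtain ⟨φ, hφ, hφ0⟩ := exists_sqrt c
    have := coeff_one_pow hφ hφ0 6
    rw [show φ ^ 6 = bQ c ^ 3 by rw [← hφ]; ring] at this
    rw [this]
    push_cast
    ring
  rw [h1, h2] at h
  linarith

end Vale.Agent.P231.H936
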